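import Crest.Agent.PVc.R5.Defs

/-! Row 5: the Kubilius-model comparison `TVStmt` (Bonferroni truncation). -/

set_option autoImplicit false

namespace Crest.Agent.R5

open Finset

namespace TV

/-! ### Möbius inversion on subsets and truncation -/

section Mob

variable {α : Type*} [DecidableEq α]








end Mob

/-! ### Averages -/

lemma av_eq (Q : ℕ) (G : ℤ → ℝ) : av Q G = avI 0 Q G := by
  simp [av, avI]

lemma shift_one (Q : ℕ) (G : ℤ → ℝ) (hG : Function.Periodic G (Q : ℤ)) (z : ℤ) :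
    ∑ y ∈ range Q, G (z + 1 + y) = ∑ y ∈ range Q, G (z + y) := by
  have h1 := sum_range_succ (fun y : ℕ => G (z + y)) Q
  have h2 := sum_range_succ' (fun y : ℕ => G (z + y)) Q
  have h3 : ∑ y ∈ range Q, G (z + ((y + 1 : ℕ) : ℤ)) = ∑ y ∈ range Q, G (z + 1 + y) :=
    sum_congr rfl fun y _ => by congr 1; push_cast; ring
  simp only [Nat.cast_zero, add_zero] at h2
  rw [h3] at h2
  rw [hG z] at h1
  linarith

lemma shift (Q : ℕ) (G : ℤ → ℝ) (hG : Function.Periodic G (Q : ℤ)) (z : ℤ) :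
    ∑ y ∈ range Q, G (z + y) = ∑ y ∈ range Q, G y := by
  induction z using Int.induction_on with
  | zero => simp
  | succ n ih => rw [shift_one Q G hG, ih]
  | pred n ih =>
    rw [← ih, ← shift_one Q G hG]
    simp

lemma sum_mod (Q : ℕ) (hQ : 0 < Q) (G : ℤ → ℝ) (hG : Function.Periodic G (Q : ℤ)) (z : ℤ)
    (ρ k : ℕ) :
    ∑ y ∈ range (ρ + Q * k), (G (z + y) - av Q G) = ∑ y ∈ range ρ, (G (z + y) - av Q G) := by
  induction k with
  | zero => simp
  | succ k ih =>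
    rw [show ρ + Q * (k + 1) = (ρ + Q * k) + Q by ring, sum_range_add, ih]
    have h1 : ∑ x ∈ range Q, (G (z + ((ρ + Q * k + x : ℕ) : ℤ)) - av Q G) = 0 := by
      rw [sum_sub_distrib, sum_const, card_range, nsmul_eq_mul]
      have h2 := shift Q G hG (z + ((ρ + Q * k : ℕ) : ℤ))
      have h3 : ∑ x ∈ range Q, G (z + ((ρ + Q * k + x : ℕ) : ℤ)) =
          ∑ y ∈ range Q, G (z + ((ρ + Q * k : ℕ) : ℤ) + y) :=
        sum_congr rfl fun y _ => by congr 1; push_cast; ring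
      rw [h3, h2, av]
      have : (Q : ℝ) ≠ 0 := by positivity
      field_simp
      ring
    rw [h1, add_zero]

lemma avI_sub_const (z : ℤ) (N : ℕ) (hN : 0 < N) (G : ℤ → ℝ) (a : ℝ) :
    avI z N G - a = (∑ y ∈ range N, (G (z + y) - a)) / N := by
  rw [sum_sub_distrib, sum_const, card_range, nsmul_eq_mul, avI]
  have : (N : ℝ) ≠ 0 := by positivity
  field_simp

lemma av_mul (Q k : ℕ) (hQ : 0 < Q) (hk : 0 < k) (G : ℤ → ℝ) (hG : Function.Periodic G (Q : ℤ)) :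
    av (Q * k) G = av Q G := by
  have h1 := avI_sub_const 0 (Q * k) (Nat.mul_pos hQ hk) G (av Q G)
  have h2 := sum_mod Q hQ G hG 0 0 k
  rw [zero_add] at h2
  rw [h2, ← av_eq] at h1
  simp at h1
  linarith

lemma avI_mem (z : ℤ) (N : ℕ) (G : ℤ → ℝ) (hG : ∀ y, 0 ≤ G y ∧ G y ≤ 1) :
    0 ≤ avI z N G ∧ avI z N G ≤ 1 := by
  unfold avI
  refine ⟨div_nonneg (sum_nonneg fun y _ => (hG _).1) (Nat.cast_nonneg _), ?_⟩
  apply div_le_one_of_le₀ _ (Nat.cast_nonneg _)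
  calc ∑ y ∈ range N, G (z + y) ≤ ∑ _y ∈ range N, (1 : ℝ) := sum_le_sum fun y _ => (hG _).2
    _ = N := by simp

lemma periodic_close (Q' Q : ℕ) (hQ : 0 < Q) (hd : Q' ∣ Q) (G : ℤ → ℝ)
    (hG : Function.Periodic G (Q' : ℤ)) (h01 : ∀ y, 0 ≤ G y ∧ G y ≤ 1) (z : ℤ) (N : ℕ)
    (hN : 0 < N) : |avI z N G - av Q G| ≤ (Q' : ℝ) / N := by
  obtain ⟨k, rfl⟩ := hd
  have hQ' : 0 < Q' := Nat.pos_of_mul_pos_right hQ
  have hk : 0 < k := Nat.pos_of_mul_pos_left hQ
  rw [av_mul Q' k hQ' hk G hG, avI_sub_const z N hN, abs_div, Nat.abs_cast]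
  apply div_le_div_of_nonneg_right _ (Nat.cast_nonneg _)
  have h1 := sum_mod Q' hQ' G hG z (N % Q') (N / Q')
  rw [Nat.mod_add_div] at h1
  rw [h1]
  have ha := avI_mem 0 Q' G h01
  rw [← av_eq] at ha
  calc |∑ y ∈ range (N % Q'), (G (z + y) - av Q' G)|
      ≤ ∑ y ∈ range (N % Q'), |G (z + y) - av Q' G| := abs_sum_le_sum_abs _ _
    _ ≤ ∑ _y ∈ range (N % Q'), (1 : ℝ) := by
        refine sum_le_sum fun y _ => ?_
        have := h01 (z + y)
        rw [abs_le]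
        constructor <;> linarith [ha.1, ha.2, this.1, this.2]
    _ = ((N % Q' : ℕ) : ℝ) := by simp
    _ ≤ Q' := by exact_mod_cast (Nat.mod_lt N hQ').le



/-! ### Atoms -/
















lemma esymm_le {α : Type*} (Ω : Finset α) (x : α → ℝ) (hx : ∀ p, 0 ≤ x p) (k : ℕ) (t : ℝ)
    (ht : 0 ≤ t) :
    t ^ k * ∑ τ ∈ Ω.powerset.filter (fun τ => τ.card = k), ∏ p ∈ τ, x p ≤
      Real.exp (t * ∑ p ∈ Ω, x p) := by
  calc t ^ k * ∑ τ ∈ Ω.powerset.filter (fun τ => τ.card = k), ∏ p ∈ τ, x p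
      = ∑ τ ∈ Ω.powerset.filter (fun τ => τ.card = k), ∏ p ∈ τ, (t * x p) := by
        rw [mul_sum]
        refine sum_congr rfl fun τ hτ => ?_
        rw [prod_mul_distrib, prod_const, (mem_filter.1 hτ).2]
    _ ≤ ∑ τ ∈ Ω.powerset, ∏ p ∈ τ, (t * x p) :=
        sum_le_sum_of_subset_of_nonneg (filter_subset _ _)
          (fun τ _ _ => prod_nonneg fun p _ => mul_nonneg ht (hx p))
    _ = ∏ p ∈ Ω, (1 + t * x p) := (prod_one_add _).symm
    _ ≤ Real.exp (∑ p ∈ Ω, t * x p) :=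
        Real.prod_one_add_le_exp_sum _ (fun p => mul_nonneg ht (hx p))
    _ = Real.exp (t * ∑ p ∈ Ω, x p) := by rw [mul_sum]



end TV


end Crest.Agent.R5
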