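import Crest.Agent.PVc.R5.Defs

/-! Row 5, module `Spec`: the trace method for a symmetric weighted graph on `[0, M)`. -/

set_option autoImplicit false

namespace Crest.Agent.R5

open Finset Matrix

namespace Spec

/-! ### Abstract part: symmetric real matrices -/

lemma logconv (s : ℕ → ℝ) (h0 : ∀ j, 0 ≤ s j) (hc : ∀ j, s (j + 1) ^ 2 ≤ s j * s (j + 2))
    (j : ℕ) : s 1 * s j ≤ s 0 * s (j + 1) := by
  induction j with
  | zero => simp [mul_comm]
  | succ j ih =>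
    rcases (h0 (j + 1)).eq_or_lt with h | h
    · rw [← h, mul_zero]; exact mul_nonneg (h0 _) (h0 _)
    · have hj : 0 < s j := by
        rcases (h0 j).eq_or_lt with h' | h'
        · have := hc j
          rw [← h', zero_mul] at this
          nlinarith
        · exact h'
      have h1 : s j * (s 1 * s (j + 1)) ≤ s j * (s 0 * s (j + 1 + 1)) := by
        have a1 : s 1 * s j * s (j + 1) ≤ s 0 * s (j + 1) * s (j + 1) :=
          mul_le_mul_of_nonneg_right ih (h0 _)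
        have a2 : s 0 * s (j + 1) ^ 2 ≤ s 0 * (s j * s (j + 2)) :=
          mul_le_mul_of_nonneg_left (hc j) (h0 _)
        have e : j + 1 + 1 = j + 2 := rfl
        rw [e]
        nlinarith
      exact le_of_mul_le_mul_left h1 hj

lemma logconv_pow (s : ℕ → ℝ) (h0 : ∀ j, 0 ≤ s j) (hc : ∀ j, s (j + 1) ^ 2 ≤ s j * s (j + 2))
    (j : ℕ) : s 1 ^ j * s 0 ≤ s 0 ^ j * s j := by
  induction j with
  | zero => simp
  | succ j ih =>
    have a1 : s 1 * (s 1 ^ j * s 0) ≤ s 1 * (s 0 ^ j * s j) :=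
      mul_le_mul_of_nonneg_left ih (h0 _)
    have a2 : s 0 ^ j * (s 1 * s j) ≤ s 0 ^ j * (s 0 * s (j + 1)) :=
      mul_le_mul_of_nonneg_left (logconv s h0 hc j) (pow_nonneg (h0 _) _)
    calc s 1 ^ (j + 1) * s 0 = s 1 * (s 1 ^ j * s 0) := by ring
      _ ≤ s 1 * (s 0 ^ j * s j) := a1
      _ = s 0 ^ j * (s 1 * s j) := by ring
      _ ≤ s 0 ^ j * (s 0 * s (j + 1)) := a2
      _ = s 0 ^ (j + 1) * s (j + 1) := by ring

variable {n : Type} [Fintype n] [DecidableEq n]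

omit [DecidableEq n] in
lemma cs (x y : n → ℝ) : (x ⬝ᵥ y) ^ 2 ≤ (x ⬝ᵥ x) * (y ⬝ᵥ y) := by
  have := Finset.sum_mul_sq_le_sq_mul_sq Finset.univ x y
  simpa [dotProduct, sq] using this

omit [DecidableEq n] in
lemma dot_self_nonneg (x : n → ℝ) : 0 ≤ x ⬝ᵥ x :=
  Finset.sum_nonneg fun i _ => mul_self_nonneg (x i)

omit [DecidableEq n] in
lemma sym_dot (K : Matrix n n ℝ) (hK : Kᵀ = K) (x y : n → ℝ) :
    (K *ᵥ x) ⬝ᵥ y = x ⬝ᵥ (K *ᵥ y) := by
  rw [dotProduct_mulVec, ← mulVec_transpose, hK]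

omit [DecidableEq n] in
lemma hs (A : Matrix n n ℝ) (x : n → ℝ) :
    (A *ᵥ x) ⬝ᵥ (A *ᵥ x) ≤ (∑ i, ∑ j, A i j ^ 2) * (x ⬝ᵥ x) := by
  rw [Finset.sum_mul]
  refine Finset.sum_le_sum fun i _ => ?_
  have := cs (A i) x
  simpa [mulVec, dotProduct, sq] using this

lemma trace_eq (K : Matrix n n ℝ) (hK : Kᵀ = K) (k : ℕ) :
    ∑ i, (K ^ (2 * k)) i i = ∑ i, ∑ j, (K ^ k) i j ^ 2 := by
  have hk : (K ^ k)ᵀ = K ^ k := by rw [transpose_pow, hK]
  refine Finset.sum_congr rfl fun i _ => ?_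
  rw [two_mul, pow_add, mul_apply]
  refine Finset.sum_congr rfl fun j _ => ?_
  have : (K ^ k) j i = (K ^ k) i j := by
    conv_lhs => rw [← hk]
    rfl
  rw [this, sq]

lemma abstract (K : Matrix n n ℝ) (hK : Kᵀ = K) (u v : n → ℝ) (k : ℕ) (θ : ℝ) (hk : 1 ≤ k)
    (hθ : 0 < θ) :
    |u ⬝ᵥ (K *ᵥ v)| ≤ (θ + θ / θ ^ k * Real.sqrt (∑ i, ∑ j, (K ^ k) i j ^ 2)) *
      (Real.sqrt (u ⬝ᵥ u) * Real.sqrt (v ⬝ᵥ v)) := by
  set T : ℝ := ∑ i, ∑ j, (K ^ k) i j ^ 2 with hT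
  have hT0 : 0 ≤ T := Finset.sum_nonneg fun i _ => Finset.sum_nonneg fun j _ => sq_nonneg _
  set s : ℕ → ℝ := fun j => (K ^ j *ᵥ v) ⬝ᵥ (K ^ j *ᵥ v) with hs_def
  have h0 : ∀ j, 0 ≤ s j := fun j => dot_self_nonneg _
  have hc : ∀ j, s (j + 1) ^ 2 ≤ s j * s (j + 2) := by
    intro j
    have e : s (j + 1) = (K ^ j *ᵥ v) ⬝ᵥ (K ^ (j + 2) *ᵥ v) := by
      simp only [hs_def]
      conv_lhs => rw [pow_succ', ← mulVec_mulVec, sym_dot K hK]
      rw [mulVec_mulVec, mulVec_mulVec, ← pow_two, ← pow_add, add_comm 2 j]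
    rw [e]
    exact cs _ _
  have hp := logconv_pow s h0 hc k
  have hsk : s k ≤ T * s 0 := by
    have := hs (K ^ k) v
    simpa [hs_def] using this
  have e0 : s 0 = v ⬝ᵥ v := by simp [hs_def]
  have e1 : s 1 = (K *ᵥ v) ⬝ᵥ (K *ᵥ v) := by simp [hs_def]
  have hcs : |u ⬝ᵥ (K *ᵥ v)| ≤ Real.sqrt (u ⬝ᵥ u) * Real.sqrt (s 1) := by
    rw [← Real.sqrt_mul (dot_self_nonneg u), e1]
    exact Real.abs_le_sqrt (cs _ _)
  have hc0 : 0 ≤ θ + θ / θ ^ k * Real.sqrt T := by positivity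
  have main : Real.sqrt (s 1) ≤ (θ + θ / θ ^ k * Real.sqrt T) * Real.sqrt (s 0) := by
    rcases (h0 0).eq_or_lt with h | h
    · have h1 : s 1 ≤ 0 := by
        have := hs K v
        rw [← e0, ← e1, ← h, mul_zero] at this
        exact this
      rw [Real.sqrt_eq_zero'.2 h1]
      positivity
    · set ν : ℝ := Real.sqrt (s 1) / Real.sqrt (s 0) with hν
      have hs0 : 0 < Real.sqrt (s 0) := Real.sqrt_pos.2 h
      have hν0 : 0 ≤ ν := by positivity
      have hν2 : ν ^ 2 = s 1 / s 0 := by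
        rw [hν, div_pow, Real.sq_sqrt (h0 1), Real.sq_sqrt (h0 0)]
      have hνk : ν ^ k ≤ Real.sqrt T := by
        apply Real.le_sqrt_of_sq_le
        rw [← pow_mul, mul_comm, pow_mul, hν2, div_pow, div_le_iff₀ (pow_pos h k)]
        have a1 : s 0 ^ k * s k ≤ s 0 ^ k * (T * s 0) :=
          mul_le_mul_of_nonneg_left hsk (pow_nonneg h.le _)
        have a2 : s 1 ^ k * s 0 ≤ T * s 0 ^ k * s 0 := by nlinarith
        exact le_of_mul_le_mul_right a2 h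
      have hνle : ν ≤ θ + θ / θ ^ k * Real.sqrt T := by
        rcases le_total ν θ with h1 | h1
        · have : 0 ≤ θ / θ ^ k * Real.sqrt T := by positivity
          linarith
        · have a1 : 1 ≤ ν / θ := (one_le_div hθ).2 h1
          have a2 : ν / θ ≤ (ν / θ) ^ k := le_self_pow₀ a1 (by omega)
          have a3 : ν ≤ θ / θ ^ k * ν ^ k := by
            rw [div_pow, div_le_iff₀ hθ] at a2
            calc ν ≤ ν ^ k / θ ^ k * θ := a2
              _ = θ / θ ^ k * ν ^ k := by ring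
          have a4 : θ / θ ^ k * ν ^ k ≤ θ / θ ^ k * Real.sqrt T :=
            mul_le_mul_of_nonneg_left hνk (by positivity)
          linarith
      rw [hν, div_le_iff₀ hs0] at hνle
      exact hνle
  rw [← e0]
  calc |u ⬝ᵥ (K *ᵥ v)| ≤ Real.sqrt (u ⬝ᵥ u) * Real.sqrt (s 1) := hcs
    _ ≤ Real.sqrt (u ⬝ᵥ u) * ((θ + θ / θ ^ k * Real.sqrt T) * Real.sqrt (s 0)) :=
        mul_le_mul_of_nonneg_left main (Real.sqrt_nonneg _)
    _ = _ := by ring

/-! ### Walks -/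

variable {ι : Type}



open Classical in
/-- weighted walks of length `m` from `i` to `i'` inside `[0, M)` -/
noncomputable def W (M : ℕ) (Lab : Finset ι) (δ : ι → ℤ) (a : ℤ → ι → ℝ) (m : ℕ) (i i' : ℤ) : ℝ :=
  ∑ w ∈ Fintype.piFinset (fun _ : Fin m => Lab),
    if (∀ j : Fin m, 0 ≤ offs δ i w j ∧ offs δ i w j < M) ∧ offs δ i w m = i' then
      ∏ j : Fin m, a (offs δ i w j) (w j) else 0


lemma sum_piFinset_succ {m : ℕ} (Lab : Finset ι) (F : (Fin (m + 1) → ι) → ℝ) :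
    ∑ w ∈ Fintype.piFinset (fun _ : Fin (m + 1) => Lab), F w =
      ∑ l ∈ Lab, ∑ w ∈ Fintype.piFinset (fun _ : Fin m => Lab), F (Fin.cons l w) := by
  rw [← Finset.sum_product']
  symm
  refine Finset.sum_bij' (fun x _ => (Fin.cons x.1 x.2 : Fin (m + 1) → ι))
    (fun w _ => (w 0, Fin.tail w)) ?_ ?_ ?_ ?_ ?_
  · rintro ⟨l, w⟩ h
    simp only [Finset.mem_product, Fintype.mem_piFinset] at h ⊢
    intro j
    refine Fin.cases ?_ (fun j => ?_) j
    · simpa using h.1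
    · simpa using h.2 j
  · intro w h
    simp only [Finset.mem_product, Fintype.mem_piFinset] at h ⊢
    exact ⟨h 0, fun j => h _⟩
  · rintro ⟨l, w⟩ _
    simp
  · intro w _
    simp
  · rintro ⟨l, w⟩ _
    rfl






end Spec


end Crest.Agent.R5
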