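import Crest.Prelude.Def_Dickman

/-! Row 5 (Erdős–Pomerance in natural density): definitions and the statements of the modules.

Plan.  `f n = 1[P⁺ n ≤ X^a]` is replaced by a Type-I approximant `g` (mean zero).  The
correlation `∑_{m ≤ X} g m * v (m+1)` is lifted to the graph `n → n + p*e`, `p*e ∈ [D,(1+ε)D]`,
`p` a top prime, `e` a squarefree filler (a finite set of filler primes) with weight `15^ω(e)`.
`GraphStmt`: the centred graph (weights `1[p ∣ n] - 1/p`) is an expander.  `MRTStmt`: the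
uncentred part is small. -/

set_option autoImplicit false

namespace Crest.Agent.R5

open Finset Filter MeasureTheory
open Crest.NumberTheoryR.SmoothNumbers

open Classical in
/-- primes in the real interval `(A, B]` -/
noncomputable def pr (A B : ℝ) : Finset ℕ :=
  (Finset.Icc 1 ⌊B⌋₊).filter (fun p => p.Prime ∧ A < (p : ℝ))

/-- product of a finite set of naturals -/
def pd (s : Finset ℕ) : ℕ := ∏ q ∈ s, q

/-- indicator of divisibility on the integers -/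
def dv (p : ℕ) (n : ℤ) : ℝ := if (p : ℤ) ∣ n then 1 else 0

/-- `e(x) = exp (2 π i x)` -/
noncomputable def ee (x : ℝ) : ℂ := Complex.exp (((2 * Real.pi * x : ℝ) : ℂ) * Complex.I)

/-- `n^{-it}` -/
noncomputable def nit (n : ℕ) (t : ℝ) : ℂ :=
  Complex.exp (((-(t * Real.log n) : ℝ) : ℂ) * Complex.I)

/-- average over a full period -/
noncomputable def av (Q : ℕ) (F : ℤ → ℝ) : ℝ := (∑ y ∈ range Q, F y) / Q

/-- average over the interval `[y0, y0 + N)` -/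
noncomputable def avI (y0 : ℤ) (N : ℕ) (F : ℤ → ℝ) : ℝ := (∑ y ∈ range N, F (y0 + y)) / N

/-! ## Prime sums -/

def MertensStmt : Prop :=
  ∃ C : ℝ, 1 ≤ C ∧
    (∀ A B : ℝ, 2 ≤ A → A ≤ B →
      |∑ p ∈ pr A B, 1 / (p : ℝ) - (Real.log (Real.log B) - Real.log (Real.log A))|
        ≤ C / Real.log A) ∧
    (∀ B : ℝ, 1 ≤ B → ∑ p ∈ pr 0 B, Real.log p / p ≤ Real.log B + C)


/-! ## The independent model -/

def CRTStmt : Prop :=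
  (∀ (Q₁ Q₂ : ℕ) (F G : ℤ → ℝ), 0 < Q₁ → 0 < Q₂ → Nat.Coprime Q₁ Q₂ →
    Function.Periodic F (Q₁ : ℤ) → Function.Periodic G (Q₂ : ℤ) →
    av (Q₁ * Q₂) (fun y => F y * G y) = av Q₁ F * av Q₂ G) ∧
  (∀ (S : Finset ℕ) (F : ℕ → ℤ → ℝ), (∀ q ∈ S, q.Prime) →
    (∀ q ∈ S, Function.Periodic (F q) (q : ℤ)) →
    av (pd S) (fun y => ∏ q ∈ S, F q y) = ∏ q ∈ S, av q (F q))


open Classical in
/-- the bound for the expectation over the top primes -/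
noncomputable def kap {m : ℕ} (p : Fin m → ℕ) (t : Fin m → ℤ) : ℝ :=
  if ∀ i, ∃ j, j ≠ i ∧ p j = p i then
    ∏ i, ((if ∃ j, j < i ∧ p j = p i ∧ (p i : ℤ) ∣ t i - t j then (1 : ℝ) else 0) + 2 / (p i : ℝ))
  else 0


/-- position of a walk before step `i` -/
def offs {ι : Type} {m : ℕ} (δ : ι → ℤ) (t0 : ℤ) (w : Fin m → ι) (i : ℕ) : ℤ :=
  t0 + ∑ j : Fin m, if (j : ℕ) < i then δ (w j) else 0




/-! ## The graph -/

/-- top primes -/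
noncomputable def top (θ : ℝ) (D : ℕ) : Finset ℕ := pr ((D : ℝ) ^ (θ ^ 3)) ((D : ℝ) ^ (θ ^ 2))

/-- filler primes -/
noncomputable def fil (θ : ℝ) (D : ℕ) : Finset ℕ := pr 0 (2 * D) \ top θ D

/-- the window condition `p * e ∈ [D, (1+ε) D]` -/
def win (ε : ℝ) (D p : ℕ) (s : Finset ℕ) : Prop :=
  D ≤ p * pd s ∧ ((p * pd s : ℕ) : ℝ) ≤ (1 + ε) * D

open Classical in
/-- edge labels `(p, s)` -/
noncomputable def lab (θ ε : ℝ) (D : ℕ) : Finset (ℕ × Finset ℕ) :=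
  (top θ D ×ˢ (fil θ D).powerset).filter (fun l => win ε D l.1 l.2)

/-- the filler primes dividing `n` -/
noncomputable def pat (θ : ℝ) (D : ℕ) (n : ℤ) : Finset ℕ := (fil θ D).filter (fun q => (q : ℤ) ∣ n)

/-- vertex weight -/
noncomputable def Wt (C0 : ℝ) (D : ℕ) (T : Finset ℕ) : ℝ := C0 * 16 ^ T.card / Real.log D

open Classical in
/-- weighted number of window divisors -/
noncomputable def Nc (ε : ℝ) (D p : ℕ) (T : Finset ℕ) : ℝ :=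
  ∑ s ∈ T.powerset.filter (fun s => win ε D p s), (15 : ℝ) ^ s.card

open Classical in
/-- no three small filler divisors in one residue class modulo a top prime -/
def G3 (θ : ℝ) (D : ℕ) (T : Finset ℕ) : Prop :=
  ∀ p ∈ top θ D, ∀ r : ℤ,
    (T.powerset.filter (fun s => pd s ≤ 2 * D ∧ (p : ℤ) ∣ (pd s : ℤ) - r)).card ≤ 2

/-- good (vertex pattern, label) pairs -/
def ok (θ ε C0 : ℝ) (D : ℕ) (T : Finset ℕ) (l : ℕ × Finset ℕ) : Prop :=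
  Nc ε D l.1 T ≤ Wt C0 D T ∧ (15 : ℝ) ^ l.2.card * Real.log D ^ 2 ≤ 16 ^ T.card ∧ G3 θ D T

/-- the Euler product `∏ (1 + 15/q)` over the filler primes -/
noncomputable def PiF (θ : ℝ) (D : ℕ) : ℝ := ∏ q ∈ fil θ D, (1 + 15 / (q : ℝ))


/-- reciprocal sum of the top primes -/
noncomputable def Lt (θ : ℝ) (D : ℕ) : ℝ := ∑ p ∈ top θ D, 1 / (p : ℝ)











open Classical in
/-- half weight -/
noncomputable def phi (θ ε C0 : ℝ) (D : ℕ) (T : Finset ℕ) (l : ℕ × Finset ℕ) : ℝ :=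
  if l.2 ⊆ T ∧ ok θ ε C0 D T l then Real.sqrt (15 ^ l.2.card / Wt C0 D T) else 0



open Classical in
/-- the centred sum over the good edges -/
noncomputable def goodSum (θ ε C0 : ℝ) (D h X : ℕ) (c : ℕ × Finset ℕ → ℝ) (u v : ℕ → ℝ) : ℝ :=
  ∑ l ∈ lab θ ε D, (15 : ℝ) ^ l.2.card * c l * ∑ n ∈ Icc 1 (X * D),
    if pd l.2 ∣ n ∧ ok θ ε C0 D (pat θ D n) l ∧
        ok θ ε C0 D (pat θ D ((n + h * (l.1 * pd l.2) : ℕ) : ℤ)) l then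
      (dv l.1 n - 1 / (l.1 : ℝ)) * u n * v (n + h * (l.1 * pd l.2)) else 0

/-- the centred sum over all edges -/
noncomputable def fullSum (θ ε : ℝ) (D h X : ℕ) (c : ℕ × Finset ℕ → ℝ) (u v : ℕ → ℝ) : ℝ :=
  ∑ l ∈ lab θ ε D, (15 : ℝ) ^ l.2.card * c l * ∑ n ∈ Icc 1 (X * D),
    if pd l.2 ∣ n then (dv l.1 n - 1 / (l.1 : ℝ)) * u n * v (n + h * (l.1 * pd l.2)) else 0

def GoodStmt : Prop :=
  ∀ h : ℕ, 1 ≤ h → ∃ C : ℝ, 0 < C ∧ ∀ θ : ℝ, 0 < θ → θ ≤ 1 / 2 → ∀ᶠ D : ℕ in atTop,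
    ∀ (ε C0 : ℝ) (X : ℕ) (c : ℕ × Finset ℕ → ℝ) (u v : ℕ → ℝ), 0 < ε → ε ≤ 1 → 1 ≤ C0 →
      Real.log D ^ 4 ≤ Real.log X → (∀ l, |c l| ≤ 1) → (∀ n, |u n| ≤ 1) → (∀ n, |v n| ≤ 1) →
      |goodSum θ ε C0 D h X c u v| ≤
        C * C0 * Real.sqrt (Lt θ D + 1) * (X * D) * (PiF θ D / Real.log D)

/-- the bad edges (the constant `C` is absolute) -/
def BadStmt : Prop :=
  ∃ C : ℝ, 0 < C ∧ ∀ θ η : ℝ, 0 < θ → θ ≤ 1 / 2 → 0 < η → ∀ᶠ D : ℕ in atTop,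
    ∀ (h : ℕ) (ε C0 : ℝ) (X : ℕ) (c : ℕ × Finset ℕ → ℝ) (u v : ℕ → ℝ), 0 < ε → ε ≤ 1 → 1 ≤ C0 →
      Real.log D ^ 4 ≤ Real.log X → (∀ l, |c l| ≤ 1) → (∀ n, |u n| ≤ 1) → (∀ n, |v n| ≤ 1) →
      |fullSum θ ε D h X c u v - goodSum θ ε C0 D h X c u v| ≤
        (C / C0 + η) * Lt θ D * (X * D) * (PiF θ D / Real.log D)


/-! ## Dirichlet polynomials and short sums -/



open Classical in
def ShortStmt : Prop :=
  ∀ (S : Finset ℕ) (a : ℕ → ℂ) (G ε : ℝ) (N h : ℕ), (∀ n ∈ S, 1 ≤ n) → (∀ n ∈ S, ‖a n‖ ≤ G) →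
    0 ≤ G → 0 < ε → ε ≤ 1 → 1 ≤ h → h ≤ N →
    ∑ t ∈ Ico N (3 * N), ‖∑ n ∈ S.filter (fun n => t < n ∧ n ≤ t + h), a n‖ ^ 2 ≤
      4 * (h : ℝ) ^ 2 / (ε ^ 2 * N) *
          (∫ u : ℝ, ‖∑ n ∈ S.filter (fun n : ℕ => u < Real.log n ∧ Real.log n ≤ u + ε), a n‖ ^ 2) +
        4 * N * (G * (10 * ε * N + 2)) ^ 2





/-- Type-I data at scale `X` -/
structure TypeI (X : ℕ) (κ B : ℝ) (R : Finset ℕ) (c : ℕ → ℝ) : Prop where
  abs_le : ∀ d, |c d| ≤ 1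
  pos : ∀ d ∈ R, 1 ≤ d
  le : ∀ d ∈ R, (d : ℝ) ≤ (X : ℝ) ^ (1 - κ)
  rough : ∀ d ∈ R, ∀ p : ℕ, p.Prime → p ∣ d → Real.exp (Real.sqrt (Real.log X)) < p
  sum_le : ∑ d ∈ R, 1 / (d : ℝ) ≤ B
  card_le : ∀ n : ℕ, 1 ≤ n → n ≤ X ^ 2 → ((R.filter (fun d => d ∣ n)).card : ℝ) ≤ B

/-- the mean-zero Type-I function -/
noncomputable def gI (R : Finset ℕ) (c : ℕ → ℝ) (n : ℕ) : ℝ :=
  ∑ d ∈ R, c d * ((if d ∣ n then 1 else 0) - 1 / (d : ℝ))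

/-- number of elements of `S` dividing `n` -/
def om (S : Finset ℕ) (n : ℕ) : ℕ := (S.filter (fun q => q ∣ n)).card





def MinorStmt : Prop :=
  ∀ (S : Finset ℕ) (Q N P : ℕ) (γ w : ℕ → ℂ) (G α Δ : ℝ), (∀ q ∈ S, Q ≤ q ∧ q < 2 * Q) → 1 ≤ Q →
    Q ≤ P → P ≤ N → (∀ q, ‖γ q‖ ≤ 1) → (∀ m, 1 ≤ m → m ≤ 3 * N → ‖w m‖ ≤ G) → 0 ≤ G → 0 < Δ →
    (∀ k : ℕ, 1 ≤ k → k < Q → ∀ z : ℤ, Δ ≤ |α * k - z|) →
    ∑ t ∈ Ico N (2 * N), ‖∑ q ∈ S, γ q * ∑ n ∈ (Ioc t (t + P)).filter (fun n => q ∣ n),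
        w (n / q) * ee (α * n)‖ ^ 2 ≤ 24 * G ^ 2 * N * P * (P / Q + Q / Δ)

def MajorStmt : Prop :=
  ∀ (u : ℕ → ℂ) (G α Δ : ℝ) (k r R h N : ℕ) (z : ℤ), 1 ≤ k → k ∣ r → 1 ≤ r → 1 ≤ R → 1 ≤ h →
    R * h ≤ N → (∀ n, 1 ≤ n → n ≤ 3 * N → ‖u n‖ ≤ G) → 0 ≤ G → |α * k - z| ≤ Δ →
    ∑ t ∈ Ico N (2 * N), ‖∑ n ∈ Ioc t (t + R * h), u n * ee (α * n)‖ ^ 2 ≤
      2 * (R : ℝ) ^ 2 * r * (∑ b ∈ range r, ∑ t ∈ Ico N (3 * N),
          ‖∑ n ∈ (Ioc t (t + h)).filter (fun n => n ≡ b [MOD r]), u n‖ ^ 2) +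
        2 * N * (G * (R * h) * (7 * Δ * h)) ^ 2






/-! ## Smooth numbers -/

open Classical in
/-- indicator of `y`-smooth numbers -/
noncomputable def sm (y : ℝ) (n : ℕ) : ℝ := if (largestPrimeFactor n : ℝ) ≤ y then 1 else 0




end Crest.Agent.R5
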