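import Crest.Agent.PVc.R5.Defs

/-! Row 5: pointwise bound for the Dirichlet polynomial of a Type-I function. -/

set_option autoImplicit false

namespace Crest.Agent.R5

open Finset Filter

namespace Point

/-- the sum of `m^{-it}` over a residue class -/
noncomputable def S (Lo k b : ℕ) (t : ℝ) : ℂ :=
  ∑ m ∈ (Ioc Lo (16 * Lo)).filter (fun m => m ≡ b [MOD k]), nit m t

theorem norm_nit (n : ℕ) (t : ℝ) : ‖nit n t‖ = 1 := Complex.norm_exp_ofReal_mul_I _

theorem norm_exp_sub (x y : ℝ) :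
    ‖Complex.exp (x * Complex.I) - Complex.exp (y * Complex.I)‖ ≤ |x - y| := by
  have h : Complex.exp (x * Complex.I) - Complex.exp (y * Complex.I) =
      Complex.exp (y * Complex.I) * (Complex.exp (Complex.I * (x - y : ℝ)) - 1) := by
    rw [mul_sub, ← Complex.exp_add, mul_one]
    congr 2
    push_cast
    ring
  rw [h, norm_mul, Complex.norm_exp_ofReal_mul_I, one_mul]
  exact Real.norm_exp_I_mul_ofReal_sub_one_le

theorem norm_nit_sub {n : ℕ} (hn : 1 ≤ n) (t : ℝ) :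
    ‖nit (n + 1) t - nit n t‖ ≤ |t| * (Real.log ((n + 1 : ℕ) : ℝ) - Real.log n) := by
  refine (norm_exp_sub _ _).trans (le_of_eq ?_)
  have h : Real.log n ≤ Real.log ((n + 1 : ℕ) : ℝ) :=
    Real.log_le_log (by exact_mod_cast hn) (by push_cast; linarith)
  rw [show -(t * Real.log ((n + 1 : ℕ) : ℝ)) - -(t * Real.log n) =
    -(t * (Real.log ((n + 1 : ℕ) : ℝ) - Real.log n)) by ring, abs_neg, abs_mul,
    abs_of_nonneg (sub_nonneg.2 h)]

/-- Abel summation -/
theorem abel (a f : ℕ → ℂ) (A : ℕ) (M : ℝ) (h : ∀ N, ‖∑ m ∈ Ioc A (A + N), a m‖ ≤ M) (N : ℕ) :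
    ‖∑ m ∈ Ioc A (A + N), a m * f m - (∑ m ∈ Ioc A (A + N), a m) * f (A + N)‖ ≤
      M * ∑ i ∈ range N, ‖f (A + i + 1) - f (A + i)‖ := by
  induction N with
  | zero => simp
  | succ N ih =>
    rw [← add_assoc, sum_Ioc_succ_top (Nat.le_add_right _ _),
      sum_Ioc_succ_top (Nat.le_add_right _ _), sum_range_succ, mul_add]
    have e : ∑ m ∈ Ioc A (A + N), a m * f m + a (A + N + 1) * f (A + N + 1) -
        (∑ m ∈ Ioc A (A + N), a m + a (A + N + 1)) * f (A + N + 1) =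
        (∑ m ∈ Ioc A (A + N), a m * f m - (∑ m ∈ Ioc A (A + N), a m) * f (A + N)) -
          (∑ m ∈ Ioc A (A + N), a m) * (f (A + N + 1) - f (A + N)) := by ring
    rw [e]
    refine (norm_sub_le _ _).trans (add_le_add ih ?_)
    rw [norm_mul]
    exact mul_le_mul_of_nonneg_right (h N) (norm_nonneg _)

theorem count (A N b : ℕ) {k : ℕ} (hk : 0 < k) :
    |(#((Ioc A (A + N)).filter fun m => m ≡ b [MOD k]) : ℝ) - N / k| ≤ 1 := by
  have h := Nat.Ioc_filter_modEq_card A (A + N) hk b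
  have hk' : (0 : ℚ) < k := by exact_mod_cast hk
  have h0 : (0 : ℚ) ≤ N / k := by positivity
  have e : (((A + N : ℕ) : ℚ) - b) / k = ((A : ℚ) - b) / k + N / k := by
    push_cast
    ring
  rw [e] at h
  generalize ((A : ℚ) - b) / k = x at h
  rw [max_eq_left (sub_nonneg.2 (Int.floor_mono (le_add_of_nonneg_right h0)))] at h
  have h' : (#((Ioc A (A + N)).filter fun m => m ≡ b [MOD k]) : ℚ) =
      (⌊x + N / k⌋ : ℚ) - (⌊x⌋ : ℚ) := by exact_mod_cast h
  have h1 := Int.floor_le x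
  have h2 := Int.lt_floor_add_one x
  have h3 := Int.floor_le (x + N / k)
  have h4 := Int.lt_floor_add_one (x + N / k)
  have : |(#((Ioc A (A + N)).filter fun m => m ≡ b [MOD k]) : ℚ) - N / k| ≤ 1 := by
    rw [h', abs_le]
    constructor <;> linarith
  have h5 := (Rat.cast_le (K := ℝ)).2 this
  simpa using h5

/-- small `t`: every class carries its share of the full sum -/
theorem small {Lo k : ℕ} (hLo : 1 ≤ Lo) (hk : 0 < k) (b : ℕ) (t : ℝ) :
    ‖S Lo k b t - 1 / (k : ℂ) * ∑ m ∈ Ioc Lo (16 * Lo), nit m t‖ ≤ 1 + 3 * |t| := by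
  let a : ℕ → ℂ := fun m => (if m ≡ b [MOD k] then 1 else 0) - 1 / (k : ℂ)
  have ha : ∀ N, ‖∑ m ∈ Ioc Lo (Lo + N), a m‖ ≤ 1 := fun N => by
    have : ∑ m ∈ Ioc Lo (Lo + N), a m =
        (((#((Ioc Lo (Lo + N)).filter fun m => m ≡ b [MOD k]) : ℝ) - N / k : ℝ) : ℂ) := by
      simp only [a, sum_sub_distrib, sum_boole, sum_const, Nat.card_Ioc, Nat.add_sub_cancel_left,
        nsmul_eq_mul]
      push_cast
      ring
    rw [this, Complex.norm_real]
    exact count Lo N b hk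
  have h1 := abel a (fun m => nit m t) Lo 1 ha (15 * Lo)
  have h2 : ∑ i ∈ range (15 * Lo), ‖nit (Lo + i + 1) t - nit (Lo + i) t‖ ≤ 3 * |t| := by
    refine (sum_le_sum fun i _ => norm_nit_sub (n := Lo + i) (by omega) t).trans ?_
    rw [← mul_sum, mul_comm]
    refine mul_le_mul_of_nonneg_right ?_ (abs_nonneg t)
    have h3 := sum_range_sub (fun i => Real.log ((Lo + i : ℕ) : ℝ)) (15 * Lo)
    simp only [← add_assoc] at h3
    have hLo' : (0 : ℝ) < Lo := by exact_mod_cast hLo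
    rw [h3, show ((Lo + 15 * Lo : ℕ) : ℝ) = 2 ^ 4 * Lo by push_cast; ring, add_zero,
      Real.log_mul (by norm_num) hLo'.ne', Real.log_pow]
    have := Real.log_two_lt_d9
    push_cast
    linarith
  have h4 : ‖(∑ m ∈ Ioc Lo (Lo + 15 * Lo), a m) * nit (Lo + 15 * Lo) t‖ ≤ 1 := by
    rw [norm_mul, norm_nit, mul_one]
    exact ha _
  have e : S Lo k b t - 1 / (k : ℂ) * ∑ m ∈ Ioc Lo (16 * Lo), nit m t =
      ∑ m ∈ Ioc Lo (Lo + 15 * Lo), a m * nit m t := by
    rw [show Lo + 15 * Lo = 16 * Lo by ring, S, sum_filter, mul_sum, ← sum_sub_distrib]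
    refine sum_congr rfl fun m _ => ?_
    simp only [a]
    split_ifs <;> ring
  rw [e]
  have := norm_add_le (∑ m ∈ Ioc Lo (Lo + 15 * Lo), a m * nit m t -
    (∑ m ∈ Ioc Lo (Lo + 15 * Lo), a m) * nit (Lo + 15 * Lo) t)
    ((∑ m ∈ Ioc Lo (Lo + 15 * Lo), a m) * nit (Lo + 15 * Lo) t)
  rw [sub_add_cancel] at this
  linarith



theorem ev_rpow {y : ℝ} (hy : 0 < y) (M : ℝ) : ∀ᶠ X : ℕ in atTop, M ≤ (X : ℝ) ^ y :=
  ((tendsto_rpow_atTop hy).comp tendsto_natCast_atTop_atTop).eventually_ge_atTop M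


end Point


end Crest.Agent.R5
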