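import Crest.Agent.PVc.R5.Defs

/-! Row 5: the independent model (Chinese remainder theorem) and the expectation over the top
primes. -/

set_option autoImplicit false

namespace Crest.Agent.R5

open Finset

namespace CRT

lemma per_mod {F : ℤ → ℝ} {Q : ℕ} (hF : Function.Periodic F (Q : ℤ)) (y : ℕ) :
    F ((y % Q : ℕ) : ℤ) = F y := by
  have h := hF.nat_mul (y / Q) ((y % Q : ℕ) : ℤ)
  rw [← h]
  congr 1
  have := Nat.mod_add_div y Q
  push_cast
  rw [mul_comm]
  exact_mod_cast this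

lemma per_dvd {F : ℤ → ℝ} {q Q : ℕ} (hF : Function.Periodic F (q : ℤ)) (h : q ∣ Q) :
    Function.Periodic F (Q : ℤ) := by
  obtain ⟨k, rfl⟩ := h
  have := hF.nat_mul k
  rwa [mul_comm, ← Nat.cast_mul] at this

lemma two (Q₁ Q₂ : ℕ) (F G : ℤ → ℝ) (h₁ : 0 < Q₁) (h₂ : 0 < Q₂) (hc : Nat.Coprime Q₁ Q₂)
    (hF : Function.Periodic F (Q₁ : ℤ)) (hG : Function.Periodic G (Q₂ : ℤ)) :
    av (Q₁ * Q₂) (fun y => F y * G y) = av Q₁ F * av Q₂ G := by
  unfold av
  rw [div_mul_div_comm, sum_mul_sum, ← sum_product', Nat.cast_mul]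
  congr 1
  refine sum_nbij (fun y => (y % Q₁, y % Q₂)) (fun y _ => ?_) (fun y hy y' hy' h => ?_)
    (fun x hx => ?_) (fun y _ => ?_)
  · simp [Nat.mod_lt _ h₁, Nat.mod_lt _ h₂]
  · simp only [Prod.mk.injEq] at h
    have := (Nat.modEq_and_modEq_iff_modEq_mul hc).1 ⟨h.1, h.2⟩
    exact this.eq_of_lt_of_lt (by simpa using hy) (by simpa using hy')
  · simp only [coe_product, coe_range, Set.mem_prod, Set.mem_Iio] at hx
    refine ⟨Nat.chineseRemainder hc x.1 x.2, ?_, ?_⟩
    · simpa using Nat.chineseRemainder_lt_mul hc x.1 x.2 h₁.ne' h₂.ne'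
    · have := (Nat.chineseRemainder hc x.1 x.2).2
      ext
      · exact Eq.trans this.1 (Nat.mod_eq_of_lt hx.1)
      · exact Eq.trans this.2 (Nat.mod_eq_of_lt hx.2)
  · simp only [per_mod hF, per_mod hG]

lemma many (S : Finset ℕ) (F : ℕ → ℤ → ℝ) (hS : ∀ q ∈ S, q.Prime)
    (hF : ∀ q ∈ S, Function.Periodic (F q) (q : ℤ)) :
    av (pd S) (fun y => ∏ q ∈ S, F q y) = ∏ q ∈ S, av q (F q) := by
  induction S using Finset.induction_on with
  | empty => simp [av, pd]
  | insert a s ha ih =>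
    have hs : ∀ q ∈ s, q.Prime := fun q hq => hS q (mem_insert_of_mem hq)
    have hap := hS a (mem_insert_self a s)
    simp only [prod_insert ha, pd]
    rw [two a (∏ q ∈ s, q) (F a) (fun y => ∏ q ∈ s, F q y) hap.pos
      (prod_pos fun q hq => (hs q hq).pos)
      (Nat.Coprime.prod_right fun q hq => (Nat.coprime_primes hap (hs q hq)).2
        fun h => ha (h ▸ hq)) (hF a (mem_insert_self a s)) ?_]
    · exact congrArg _ (ih hs fun q hq => hF q (mem_insert_of_mem hq))
    · intro y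
      exact prod_congr rfl fun q hq =>
        per_dvd (hF q (mem_insert_of_mem hq)) (dvd_prod_of_mem _ hq) y

lemma exists_root {q : ℕ} (hq : 0 < q) (t : ℤ) :
    ∃ y₀ ∈ range q, (q : ℤ) ∣ y₀ + t ∧
      ∀ G : ℤ → ℝ, ∑ y ∈ range q, G y * dv q (y + t) = G y₀ := by
  have hq' : (0 : ℤ) < q := by exact_mod_cast hq
  have h0 := Int.emod_nonneg (-t) hq'.ne'
  have h1 := Int.emod_lt_of_pos (-t) hq'
  have hc : (((-t % q).toNat : ℕ) : ℤ) = -t % q := Int.toNat_of_nonneg h0
  have hm : (-t % q).toNat ∈ range q := by rw [mem_range]; omega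
  have hd : (q : ℤ) ∣ ((-t % q).toNat : ℕ) + t := by
    rw [hc]
    exact ⟨-(-t / q), by have := Int.emod_add_mul_ediv (-t) q; linarith⟩
  refine ⟨_, hm, hd, fun G => ?_⟩
  rw [sum_eq_single_of_mem _ hm]
  · simp only [dv, if_pos hd, mul_one]
  · intro y hy hne
    rw [dv, if_neg, mul_zero]
    intro h
    apply hne
    have h2 := dvd_sub h hd
    rw [add_sub_add_right_eq_sub] at h2
    have h3 := mem_range.1 hy
    have h4 := mem_range.1 hm
    have h5 := Int.eq_zero_of_abs_lt_dvd h2 (by rw [abs_lt]; constructor <;> omega)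
    omega






end CRT

theorem crt : CRTStmt := ⟨CRT.two, CRT.many⟩


end Crest.Agent.R5
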